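import Vale.Agent.P207.FDefs

/-!
# P207: definitions of the statement on neighbourhoods of quaternionic and Cayley metrics
-/

open scoped Manifold ContDiff ENNReal
open Bundle MeasureTheory Set Filter

noncomputable section

namespace Vale.Agent.P207F

open Vale.Agent.P255 (RMetric innerAt coefIn Gam Riem IsGeo)

variable {E : Type} [NormedAddCommGroup E] [NormedSpace ℝ E] {M : Type} [TopologicalSpace M]
  [ChartedSpace E M] [IsManifold 𝓘(ℝ, E) ∞ M]

/-- Quaternionic or Cayley type: for some `κ > 0`, at some point and for some vector `v`, the Jacobi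
operator `w ↦ R(w,v)v` has the eigenvalue `-4κ` with multiplicity at least two, and the eigenvalue
`-κ`. For a locally symmetric metric of negative curvature this says that the universal cover is,
up to scaling, the quaternionic hyperbolic space of quaternionic dimension at least two or the
Cayley hyperbolic plane. -/
def QuatCayley (g : RMetric E M) : Prop :=
  ∃ (κ : ℝ) (a : M) (u v w₁ w₂ w₃ : E), 0 < κ ∧ u ∈ (chartAt E a).target ∧
    LinearIndependent ℝ ![w₁, w₂] ∧ w₃ ≠ 0 ∧
    Riem (coefIn g a) u w₁ v v = (-4 * κ) • w₁ ∧ Riem (coefIn g a) u w₂ v v = (-4 * κ) • w₂ ∧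
    Riem (coefIn g a) u w₃ v v = (-κ) • w₃

/-- Finitely many compact pieces of charts which cover `M`. -/
def ChartCover {m : ℕ} (a : Fin m → M) (K : Fin m → Set E) : Prop :=
  (∀ i, IsCompact (K i) ∧ K i ⊆ (chartAt E (a i)).target) ∧
    (⋃ i, (chartAt E (a i)).symm '' K i) = univ

end Vale.Agent.P207F
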